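import Vale.Agent.P109.SH.Lin
import Mathlib.Analysis.InnerProductSpace.PiL2

/-!
Block form of the determinant estimate of the static shadow lemma (P109):
`V` = sequences `x_0, …, x_n` in `E` with the `ℓ²` norm, `F` = sequences of `n` sources,
`T x = (x_{t+1} - D_t x_t)_t`.
-/

open Module
open scoped InnerProductSpace

namespace Vale.Agent.P109.SH

section sol

variable {E : Type*} [NormedAddCommGroup E] [NormedSpace ℝ E]

/-- Solution of `x_{t+1} = D_t x_t + y_t` with `x_0 = 0`. -/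
def solSeq (D : ℕ → E →L[ℝ] E) (y : ℕ → E) : ℕ → E
  | 0 => 0
  | t + 1 => D t (solSeq D y t) + y t

theorem solSeq_add (D : ℕ → E →L[ℝ] E) (y z : ℕ → E) (t : ℕ) :
    solSeq D (fun s => y s + z s) t = solSeq D y t + solSeq D z t := by
  induction t with
  | zero => simp [solSeq]
  | succ t ih => simp only [solSeq, ih, map_add]; abel

theorem solSeq_smul (D : ℕ → E →L[ℝ] E) (c : ℝ) (y : ℕ → E) (t : ℕ) :
    solSeq D (fun s => c • y s) t = c • solSeq D y t := by
  induction t with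
  | zero => simp [solSeq]
  | succ t ih => simp only [solSeq, ih, map_smul, smul_add]

theorem solSeq_zero (D : ℕ → E →L[ℝ] E) (y : ℕ → E) {k : ℕ} (hy : ∀ s, s < k → y s = 0) :
    ∀ t, t ≤ k → solSeq D y t = 0 := by
  intro t
  induction t with
  | zero => intro _; rfl
  | succ t ih =>
    intro ht
    simp only [solSeq, ih (by omega), hy t (by omega), map_zero, add_zero]

/-- Extension of a finite sequence by zero. -/
def extz {n : ℕ} (y : PiLp 2 (fun _ : Fin n => E)) (s : ℕ) : E :=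
  if h : s < n then y ⟨s, h⟩ else 0

/-- The right inverse of `x ↦ (x_{t+1} - D_t x_t)` with zero initial value. -/
def Gz (n : ℕ) (D : ℕ → E →L[ℝ] E) :
    PiLp 2 (fun _ : Fin n => E) →ₗ[ℝ] PiLp 2 (fun _ : Fin (n + 1) => E) where
  toFun y := WithLp.toLp 2 (fun t => solSeq D (extz y) t)
  map_add' y z := by
    ext t
    have h : extz (y + z) = fun s => extz y s + extz z s := by
      funext s
      by_cases hs : s < n <;> simp [extz, hs]
    simp only [PiLp.add_apply, h, solSeq_add]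
  map_smul' c y := by
    ext t
    have h : extz (c • y) = fun s => c • extz y s := by
      funext s
      by_cases hs : s < n <;> simp [extz, hs]
    simp only [PiLp.smul_apply, RingHom.id_apply, h, solSeq_smul]

theorem Gz_apply (n : ℕ) (D : ℕ → E →L[ℝ] E) (y : PiLp 2 (fun _ : Fin n => E))
    (t : Fin (n + 1)) : Gz n D y t = solSeq D (extz y) t := rfl

end sol

section det

variable {E : Type*} [NormedAddCommGroup E] [InnerProductSpace ℝ E] [FiniteDimensional ℝ E]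

theorem adjoint_coe {V F : Type*} [NormedAddCommGroup V] [InnerProductSpace ℝ V]
    [FiniteDimensional ℝ V] [NormedAddCommGroup F] [InnerProductSpace ℝ F]
    [FiniteDimensional ℝ F] (T : V →L[ℝ] F) (y : F) :
    LinearMap.adjoint (T : V →ₗ[ℝ] F) y = ContinuousLinearMap.adjoint T y := by
  refine ext_inner_left ℝ fun v => ?_
  rw [LinearMap.adjoint_inner_right, ContinuousLinearMap.adjoint_inner_right]
  rfl

theorem det_T_comp_Gz (n : ℕ) (D D' : ℕ → E →L[ℝ] E)
    (T : PiLp 2 (fun _ : Fin (n + 1) => E) →ₗ[ℝ] PiLp 2 (fun _ : Fin n => E))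
    (hT : ∀ x i, T x i = x i.succ - D i (x i.castSucc)) :
    LinearMap.det (T ∘ₗ Gz n D') = 1 := by
  let N : PiLp 2 (fun _ : Fin n => E) →ₗ[ℝ] PiLp 2 (fun _ : Fin n => E) :=
    LinearMap.id - T ∘ₗ Gz n D'
  have hN : ∀ y i, N y i = D i (solSeq D' (extz y) i) - D' i (solSeq D' (extz y) i) := by
    intro y i
    have h1 : N y i = y i - T (Gz n D' y) i := rfl
    have h2 : extz y (i : ℕ) = y i := by simp [extz]
    rw [h1, hT, Gz_apply, Gz_apply, Fin.val_succ, Fin.val_castSucc]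
    simp only [solSeq]
    rw [h2]
    abel
  have hNk : ∀ (k : ℕ) (y : PiLp 2 (fun _ : Fin n => E)) (i : Fin n), (i : ℕ) < k →
      (N ^ k) y i = 0 := by
    intro k
    induction k with
    | zero => intro y i hi; omega
    | succ k ih =>
      intro y i hi
      rw [pow_succ', Module.End.mul_apply, hN]
      have h3 : solSeq D' (extz ((N ^ k) y)) i = 0 := by
        refine solSeq_zero D' _ (k := k) (fun s hs => ?_) _ (by omega)
        by_cases hsn : s < n
        · simp only [extz, hsn, dif_pos]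
          exact ih y ⟨s, hsn⟩ hs
        · simp [extz, hsn]
      rw [h3, map_zero, map_zero, sub_zero]
  have hnil : IsNilpotent N := by
    refine ⟨n, ?_⟩
    ext y i
    exact hNk n y i i.2
  have h4 : T ∘ₗ Gz n D' = LinearMap.id - N := by
    ext y i
    simp [N]
  rw [h4]
  exact det_id_sub_nilpotent N hnil

/-- **Determinant estimate, block form.** -/
theorem block_det (n : ℕ) (D D' : ℕ → E →L[ℝ] E)
    (T T' : PiLp 2 (fun _ : Fin (n + 1) => E) →L[ℝ] PiLp 2 (fun _ : Fin n => E))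
    (hT : ∀ x i, T x i = x i.succ - D i (x i.castSucc))
    (hT' : ∀ x i, T' x i = x i.succ - D' i (x i.castSucc))
    (A A' : E →L[ℝ] PiLp 2 (fun _ : Fin (n + 1) => E))
    (hTA : ∀ u, T (A u) = 0) (hTA' : ∀ u, T' (A' u) = 0)
    (hA0 : ∀ u, A u 0 = u) (hA0' : ∀ u, A' u 0 = u)
    {κ ζ b : ℝ} (hκ : ∀ y, ‖y‖ ≤ κ * ‖ContinuousLinearMap.adjoint T y‖)
    (hζ : ‖T' - T‖ ≤ ζ) (hb0 : 0 ≤ b) (hb : ζ * κ ≤ b) (hb1 : b < 1)
    (B : E →L[ℝ] E) {a : ℝ} (ha : 0 ≤ a) (ha1 : a < 1)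
    (hB : ∀ u v, |⟪v, B u⟫_ℝ| ≤ a * (‖A v‖ * ‖A u‖)) :
    Function.Injective ((ContinuousLinearMap.adjoint A).comp A') ∧
    ∀ L : E →L[ℝ] E,
      ((ContinuousLinearMap.adjoint A).comp A').comp L =
        (ContinuousLinearMap.adjoint A).comp A - B →
      (1 - a) ^ ((n + 1) * finrank ℝ E) / (1 + b) ^ (n * finrank ℝ E) ≤ |L.det| ∧
      |L.det| ≤ (1 + a) ^ ((n + 1) * finrank ℝ E) / (1 - b) ^ (n * finrank ℝ E) := by
  let π : PiLp 2 (fun _ : Fin (n + 1) => E) →ₗ[ℝ] E :=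
    (PiLp.proj 2 (fun _ : Fin (n + 1) => E) (0 : Fin (n + 1)) :
      PiLp 2 (fun _ : Fin (n + 1) => E) →L[ℝ] E)
  have hπ : ∀ x, π x = x 0 := fun x => rfl
  have hfV : finrank ℝ (PiLp 2 (fun _ : Fin (n + 1) => E)) = (n + 1) * finrank ℝ E := by
    rw [(WithLp.linearEquiv 2 ℝ (Fin (n + 1) → E)).finrank_eq, Module.finrank_pi_fintype]
    simp
  have hfF : finrank ℝ (PiLp 2 (fun _ : Fin n => E)) = n * finrank ℝ E := by
    rw [(WithLp.linearEquiv 2 ℝ (Fin n → E)).finrank_eq, Module.finrank_pi_fintype]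
    simp
  have hker : ∀ x : PiLp 2 (fun _ : Fin (n + 1) => E), T x = 0 → ∃ u : E, A u = x := by
    intro x hx
    refine ⟨x 0, ?_⟩
    have key : ∀ (t : ℕ) (ht : t < n + 1), A (x 0) ⟨t, ht⟩ = x ⟨t, ht⟩ := by
      intro t
      induction t with
      | zero => intro ht; exact hA0 _
      | succ t ih =>
        intro ht
        have h1 := hT x ⟨t, by omega⟩
        have h2 := hT (A (x 0)) ⟨t, by omega⟩
        have hx' : T x = 0 := hx
        rw [hx'] at h1
        rw [hTA] at h2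
        have h3 := ih (by omega)
        simp only [Fin.succ_mk, Fin.castSucc_mk, PiLp.zero_apply] at h1 h2
        rw [h3] at h2
        exact (sub_eq_zero.1 h2.symm).trans (sub_eq_zero.1 h1.symm).symm
    ext t
    exact key t t.2
  have hsplit : ∀ x, x = A' (π x) + Gz n D' (T' x) := by
    intro x
    have key : ∀ (t : ℕ) (ht : t < n + 1),
        x ⟨t, ht⟩ = A' (x 0) ⟨t, ht⟩ + solSeq D' (extz (T' x)) t := by
      intro t
      induction t with
      | zero => intro ht; simp only [solSeq, add_zero]; exact (hA0' _).symm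
      | succ t ih =>
        intro ht
        have h1 := hT' x ⟨t, by omega⟩
        have h2 := hT' (A' (x 0)) ⟨t, by omega⟩
        have h3 := ih (by omega)
        have h4 : extz (T' x) t = T' x ⟨t, by omega⟩ := by simp [extz, show t < n by omega]
        rw [hTA'] at h2
        simp only [Fin.succ_mk, Fin.castSucc_mk, PiLp.zero_apply] at h1 h2
        simp only [solSeq]
        rw [h4, h1, sub_eq_zero.1 h2.symm, h3, map_add]
        abel
    ext t
    exact key t t.2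
  have hκ' : ∀ y, ‖y‖ ≤ κ * ‖LinearMap.adjoint
      (T : PiLp 2 (fun _ : Fin (n + 1) => E) →ₗ[ℝ] PiLp 2 (fun _ : Fin n => E)) y‖ := by
    intro y; rw [adjoint_coe]; exact hκ y
  have hζ' : ∀ x, ‖T' x - T x‖ ≤ ζ * ‖x‖ := by
    intro x
    have h3 : T' x - T x = (T' - T) x := rfl
    calc ‖T' x - T x‖ = ‖(T' - T) x‖ := by rw [h3]
      _ ≤ ‖T' - T‖ * ‖x‖ := (T' - T).le_opNorm x
      _ ≤ ζ * ‖x‖ := by gcongr
  have hmain := static_det
    (T : PiLp 2 (fun _ : Fin (n + 1) => E) →ₗ[ℝ] PiLp 2 (fun _ : Fin n => E))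
    (T' : PiLp 2 (fun _ : Fin (n + 1) => E) →ₗ[ℝ] PiLp 2 (fun _ : Fin n => E))
    (A : E →ₗ[ℝ] PiLp 2 (fun _ : Fin (n + 1) => E))
    (A' : E →ₗ[ℝ] PiLp 2 (fun _ : Fin (n + 1) => E)) π
    (LinearMap.ext hTA) hker (LinearMap.ext hA0) (LinearMap.ext hA0')
    (Gz n D') hsplit (det_T_comp_Gz n D D' _ hT) (κ := κ) (ζ := ζ) (b := b)
    hκ' hζ' ((norm_nonneg (T' - T)).trans hζ) hb0 hb hb1 (B : E →ₗ[ℝ] E) ha ha1 hB
  have hc1 : ∀ u, (LinearMap.adjoint (A : E →ₗ[ℝ] PiLp 2 (fun _ : Fin (n + 1) => E)) ∘ₗ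
      (A' : E →ₗ[ℝ] PiLp 2 (fun _ : Fin (n + 1) => E))) u =
      ((ContinuousLinearMap.adjoint A).comp A') u := fun u => adjoint_coe A (A' u)
  have hc2 : ∀ u, (LinearMap.adjoint (A : E →ₗ[ℝ] PiLp 2 (fun _ : Fin (n + 1) => E)) ∘ₗ
      (A : E →ₗ[ℝ] PiLp 2 (fun _ : Fin (n + 1) => E))) u =
      ((ContinuousLinearMap.adjoint A).comp A) u := fun u => adjoint_coe A (A u)
  obtain ⟨h1, h2⟩ := hmain
  refine ⟨fun u v huv => h1 ?_, fun L hL => ?_⟩
  · rw [hc1, hc1]
    exact huv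
  · have h4 : (LinearMap.adjoint (A : E →ₗ[ℝ] PiLp 2 (fun _ : Fin (n + 1) => E)) ∘ₗ
        (A' : E →ₗ[ℝ] PiLp 2 (fun _ : Fin (n + 1) => E))) ∘ₗ (L : E →ₗ[ℝ] E) =
        LinearMap.adjoint (A : E →ₗ[ℝ] PiLp 2 (fun _ : Fin (n + 1) => E)) ∘ₗ
        (A : E →ₗ[ℝ] PiLp 2 (fun _ : Fin (n + 1) => E)) - (B : E →ₗ[ℝ] E) := by
      refine LinearMap.ext fun u => ?_
      rw [LinearMap.comp_apply, LinearMap.sub_apply, hc1, hc2]
      exact DFunLike.congr_fun hL u
    have h3 := h2 (L : E →ₗ[ℝ] E) h4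
    rw [hfV, hfF] at h3
    exact h3

end det

end Vale.Agent.P109.SH
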