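import Vale.Agent.P109.SH.Const

/-!
The operator `Top n D : (x_0, …, x_n) ↦ (x_{t+1} - D_t x_t)_{t < n}` on `ℓ²` sequences (P109).
-/

open Module
open scoped InnerProductSpace

namespace Vale.Agent.P109.SH

variable {E : Type*} [NormedAddCommGroup E] [InnerProductSpace ℝ E]

/-- `Top n D x i = x (i+1) - D i (x i)`. -/
noncomputable def Top (n : ℕ) (D : ℕ → E →L[ℝ] E) :
    PiLp 2 (fun _ : Fin (n + 1) => E) →L[ℝ] PiLp 2 (fun _ : Fin n => E) :=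
  ((PiLp.continuousLinearEquiv 2 ℝ (fun _ : Fin n => E)).symm :
      (Fin n → E) →L[ℝ] PiLp 2 (fun _ : Fin n => E)).comp
    (ContinuousLinearMap.pi fun i : Fin n =>
      (PiLp.proj 2 (fun _ : Fin (n + 1) => E) i.succ :
          PiLp 2 (fun _ : Fin (n + 1) => E) →L[ℝ] E) -
        (D i).comp (PiLp.proj 2 (fun _ : Fin (n + 1) => E) i.castSucc))

theorem Top_apply (n : ℕ) (D : ℕ → E →L[ℝ] E) (x : PiLp 2 (fun _ : Fin (n + 1) => E))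
    (i : Fin n) : Top n D x i = x i.succ - D i (x i.castSucc) := rfl

theorem Top_sub_apply (n : ℕ) (D D' : ℕ → E →L[ℝ] E) (x : PiLp 2 (fun _ : Fin (n + 1) => E))
    (i : Fin n) : (Top n D' x - Top n D x) i = -((D' i - D i) (x i.castSucc)) := by
  simp [Top_apply]

theorem norm_Top_sub_le {n : ℕ} {D D' : ℕ → E →L[ℝ] E} {ζ : ℝ} (hζ0 : 0 ≤ ζ)
    (hζ : ∀ t, t < n → ‖D' t - D t‖ ≤ ζ) : ‖Top n D' - Top n D‖ ≤ ζ :=
  norm_T_sub_le (Top n D) (Top n D') (Top_apply n D) (Top_apply n D') hζ0 hζ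

theorem Top_congr {n : ℕ} {D D' : ℕ → E →L[ℝ] E} (h : ∀ t, t < n → D' t = D t) :
    Top n D' = Top n D := by
  ext x i
  rw [Top_apply, Top_apply, h i i.2]

variable [FiniteDimensional ℝ E]

theorem Top_kappa {n : ℕ} {D : ℕ → E →L[ℝ] E} {K : ℝ} (h : S3.Good n D K)
    (y : PiLp 2 (fun _ : Fin n => E)) :
    ‖y‖ ≤ ((n + 1) * K) * ‖ContinuousLinearMap.adjoint (Top n D) y‖ :=
  kappa_of_good h (Top n D) (Top_apply n D) y

/-- **Determinant estimate** for `Top`. -/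
theorem Top_det (n : ℕ) (D D' : ℕ → E →L[ℝ] E)
    (A A' : E →L[ℝ] PiLp 2 (fun _ : Fin (n + 1) => E))
    (hTA : ∀ u, Top n D (A u) = 0) (hTA' : ∀ u, Top n D' (A' u) = 0)
    (hA0 : ∀ u, A u 0 = u) (hA0' : ∀ u, A' u 0 = u)
    {κ ζ b : ℝ} (hκ : ∀ y, ‖y‖ ≤ κ * ‖ContinuousLinearMap.adjoint (Top n D) y‖)
    (hζ : ‖Top n D' - Top n D‖ ≤ ζ) (hb0 : 0 ≤ b) (hb : ζ * κ ≤ b) (hb1 : b < 1)
    (B : E →L[ℝ] E) {a : ℝ} (ha : 0 ≤ a) (ha1 : a < 1)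
    (hB : ∀ u v, |⟪v, B u⟫_ℝ| ≤ a * (‖A v‖ * ‖A u‖)) :
    Function.Injective ((ContinuousLinearMap.adjoint A).comp A') ∧
    ∀ L : E →L[ℝ] E,
      ((ContinuousLinearMap.adjoint A).comp A').comp L =
        (ContinuousLinearMap.adjoint A).comp A - B →
      (1 - a) ^ ((n + 1) * finrank ℝ E) / (1 + b) ^ (n * finrank ℝ E) ≤ |L.det| ∧
      |L.det| ≤ (1 + a) ^ ((n + 1) * finrank ℝ E) / (1 - b) ^ (n * finrank ℝ E) :=
  block_det n D D' (Top n D) (Top n D') (Top_apply n D) (Top_apply n D') A A' hTA hTA' hA0 hA0'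
    hκ hζ hb0 hb hb1 B ha ha1 hB

end Vale.Agent.P109.SH
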