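import Vale.Agent.P109.SH.Block
import Vale.Agent.P109.H644.Green

/-!
Constants of the static shadow lemma (P109): `κ = (n+1) K` from the Green operators and
`‖T' - T‖ ≤ sup ‖D'_t - D_t‖`, for `T x = (x_{t+1} - D_t x_t)_t` on `ℓ²` sequences.
-/

open Module
open scoped InnerProductSpace

namespace Vale.Agent.P109.SH

variable {E : Type*} [NormedAddCommGroup E] [InnerProductSpace ℝ E] [FiniteDimensional ℝ E]

omit [InnerProductSpace ℝ E] [FiniteDimensional ℝ E] in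
/-- `ℓ²` norm of a finite sequence bounded by `M`. -/
theorem norm_le_of_forall {m : ℕ} (x : PiLp 2 (fun _ : Fin m => E)) {M : ℝ} (hM : 0 ≤ M)
    (hx : ∀ i, ‖x i‖ ≤ M) : ‖x‖ ≤ Real.sqrt m * M := by
  rw [PiLp.norm_eq_of_L2]
  have h1 : ∑ i, ‖x i‖ ^ 2 ≤ m * M ^ 2 := by
    calc ∑ i, ‖x i‖ ^ 2 ≤ ∑ _i : Fin m, M ^ 2 :=
          Finset.sum_le_sum fun i _ => pow_le_pow_left₀ (norm_nonneg _) (hx i) 2
      _ = m * M ^ 2 := by simp
  calc Real.sqrt (∑ i, ‖x i‖ ^ 2) ≤ Real.sqrt (m * M ^ 2) := Real.sqrt_le_sqrt h1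
    _ = Real.sqrt m * M := by
      rw [Real.sqrt_mul (by positivity), Real.sqrt_sq hM]

omit [InnerProductSpace ℝ E] [FiniteDimensional ℝ E] in
/-- `ℓ¹` norm against `ℓ²` norm. -/
theorem sum_norm_le {m : ℕ} (x : PiLp 2 (fun _ : Fin m => E)) :
    ∑ i, ‖x i‖ ≤ Real.sqrt m * ‖x‖ := by
  rw [PiLp.norm_eq_of_L2, ← Real.sqrt_mul (by positivity)]
  refine Real.le_sqrt_of_sq_le ?_
  have := sq_sum_le_card_mul_sum_sq (s := (Finset.univ : Finset (Fin m))) (f := fun i => ‖x i‖)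
  simpa using this

/-- `κ = (n + 1) K`. -/
theorem kappa_of_good {n : ℕ} {D : ℕ → E →L[ℝ] E} {K : ℝ} (h : S3.Good n D K)
    (T : PiLp 2 (fun _ : Fin (n + 1) => E) →L[ℝ] PiLp 2 (fun _ : Fin n => E))
    (hT : ∀ x i, T x i = x i.succ - D i (x i.castSucc)) (y : PiLp 2 (fun _ : Fin n => E)) :
    ‖y‖ ≤ ((n + 1) * K) * ‖ContinuousLinearMap.adjoint T y‖ := by
  rcases Nat.eq_zero_or_pos n with hn | hn
  · subst hn
    have : y = 0 := by ext i; exact i.elim0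
    subst this
    simp
  have hK := h.nonneg hn
  have key : ∀ y : PiLp 2 (fun _ : Fin n => E), ∃ x : PiLp 2 (fun _ : Fin (n + 1) => E),
      T x = y ∧ ‖x‖ ≤ ((n + 1) * K) * ‖y‖ := by
    intro y
    obtain ⟨x, hx1, hx2⟩ := h.solve (fun s => extz y (s - 1))
    have hsum : ∑ s ∈ Finset.Icc 1 n, ‖extz y (s - 1)‖ = ∑ i, ‖y i‖ := by
      have e1 : Finset.Icc 1 n = Finset.Ico (0 + 1) (n + 1) := by
        ext s; simp only [Finset.mem_Icc, Finset.mem_Ico]; omega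
      rw [e1, ← Finset.sum_Ico_add' (fun s => ‖extz y (s - 1)‖) 0 n 1, ← Finset.range_eq_Ico,
        Finset.sum_range]
      refine Finset.sum_congr rfl fun i _ => ?_
      simp [extz]
    refine ⟨WithLp.toLp 2 (fun t => x t), ?_, ?_⟩
    · ext i
      rw [hT]
      have h1 := hx1 i i.2
      simp only [Fin.val_succ, Fin.val_castSucc]
      rw [h1]
      simp [extz]
    · have h2 : ∀ i : Fin (n + 1), ‖x i‖ ≤ K * (Real.sqrt n * ‖y‖) := fun i =>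
        (hx2 i (by omega)).trans (by rw [hsum]; gcongr; exact sum_norm_le y)
      have h3 := norm_le_of_forall (WithLp.toLp 2 (fun t : Fin (n + 1) => x t))
        (by positivity) h2
      refine h3.trans ?_
      have h4 : Real.sqrt ((n + 1 : ℕ) : ℝ) * Real.sqrt n ≤ n + 1 := by
        have h5 : Real.sqrt n ≤ Real.sqrt ((n + 1 : ℕ) : ℝ) :=
          Real.sqrt_le_sqrt (by push_cast; linarith)
        calc Real.sqrt ((n + 1 : ℕ) : ℝ) * Real.sqrt n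
            ≤ Real.sqrt ((n + 1 : ℕ) : ℝ) * Real.sqrt ((n + 1 : ℕ) : ℝ) := by gcongr
          _ = n + 1 := by rw [Real.mul_self_sqrt (by positivity)]; push_cast; ring
      calc Real.sqrt ((n + 1 : ℕ) : ℝ) * (K * (Real.sqrt n * ‖y‖))
          = (Real.sqrt ((n + 1 : ℕ) : ℝ) * Real.sqrt n) * (K * ‖y‖) := by ring
        _ ≤ (n + 1) * (K * ‖y‖) := by gcongr
        _ = ((n + 1) * K) * ‖y‖ := by ring
  choose G hG1 hG2 using key
  have := dual_bound (T : PiLp 2 (fun _ : Fin (n + 1) => E) →ₗ[ℝ] PiLp 2 (fun _ : Fin n => E))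
    G hG1 hG2 y
  rwa [adjoint_coe] at this

omit [FiniteDimensional ℝ E] in
/-- `‖T' - T‖ ≤ sup ‖D'_t - D_t‖`. -/
theorem norm_T_sub_le {n : ℕ} {D D' : ℕ → E →L[ℝ] E}
    (T T' : PiLp 2 (fun _ : Fin (n + 1) => E) →L[ℝ] PiLp 2 (fun _ : Fin n => E))
    (hT : ∀ x i, T x i = x i.succ - D i (x i.castSucc))
    (hT' : ∀ x i, T' x i = x i.succ - D' i (x i.castSucc))
    {ζ : ℝ} (hζ0 : 0 ≤ ζ) (hζ : ∀ t, t < n → ‖D' t - D t‖ ≤ ζ) : ‖T' - T‖ ≤ ζ := by
  refine ContinuousLinearMap.opNorm_le_bound _ hζ0 fun x => ?_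
  have h1 : ∀ i : Fin n, ‖((T' - T) x) i‖ ≤ ζ * ‖x i.castSucc‖ := by
    intro i
    have h2 : ((T' - T) x) i = -((D' i - D i) (x i.castSucc)) := by
      have h3 : ((T' - T) x) i = T' x i - T x i := rfl
      rw [h3, hT, hT']
      simp
    rw [h2, norm_neg]
    exact ((D' i - D i).le_opNorm _).trans (by gcongr; exact hζ i i.2)
  have h4 : ‖(T' - T) x‖ ^ 2 ≤ (ζ * ‖x‖) ^ 2 := by
    rw [PiLp.norm_sq_eq_of_L2, mul_pow, PiLp.norm_sq_eq_of_L2, Fin.sum_univ_castSucc, mul_add,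
      Finset.mul_sum]
    have h5 : ∑ i, ‖((T' - T) x) i‖ ^ 2 ≤ ∑ i : Fin n, ζ ^ 2 * ‖x i.castSucc‖ ^ 2 := by
      refine Finset.sum_le_sum fun i _ => ?_
      rw [← mul_pow]
      exact pow_le_pow_left₀ (norm_nonneg _) (h1 i) 2
    have h6 : 0 ≤ ζ ^ 2 * ‖x (Fin.last n)‖ ^ 2 := by positivity
    linarith
  exact le_of_sq_le_sq h4 (by positivity) 

end Vale.Agent.P109.SH
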