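import Mathlib.Analysis.InnerProductSpace.Adjoint
import Mathlib.MeasureTheory.Measure.Lebesgue.EqHaar
import Mathlib.LinearAlgebra.Matrix.SchurComplement
import Mathlib.LinearAlgebra.Eigenspace.Zero

/-!
Determinant estimates for the shadow lemma (P109).
-/

open MeasureTheory Module

namespace Vale.Agent.P109.SH

section basics

variable {R : Type*} [CommRing R] [IsDomain R] {M N : Type*} [AddCommGroup M] [Module R M]
  [AddCommGroup N] [Module R N] [Module.Free R M] [Module.Finite R M] [Module.Free R N]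
  [Module.Finite R N]

omit [IsDomain R] in
/-- Sylvester's identity for linear maps. -/
theorem det_one_add_comp_comm (f : M →ₗ[R] N) (g : N →ₗ[R] M) :
    LinearMap.det (LinearMap.id + f ∘ₗ g) = LinearMap.det (LinearMap.id + g ∘ₗ f) := by
  classical
  let bM := Module.Free.chooseBasis R M
  let bN := Module.Free.chooseBasis R N
  rw [← LinearMap.det_toMatrix bN, ← LinearMap.det_toMatrix bM, map_add, map_add,
    LinearMap.toMatrix_id, LinearMap.toMatrix_id,
    LinearMap.toMatrix_comp bN bM bN, LinearMap.toMatrix_comp bM bN bM,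
    Matrix.det_one_add_mul_comm]

theorem det_id_sub_nilpotent (f : M →ₗ[R] M) (h : IsNilpotent f) :
    LinearMap.det (LinearMap.id - f) = 1 := by
  have h1 := LinearMap.eval_charpoly (f := f) (1 : R)
  rw [IsNilpotent.charpoly_eq_X_pow_finrank h] at h1
  simp only [Polynomial.eval_pow, Polynomial.eval_X, one_pow, map_one] at h1
  exact h1.symm

end basics

section norm

variable {V : Type*} [NormedAddCommGroup V] [NormedSpace ℝ V] [FiniteDimensional ℝ V]

theorem abs_det_le_norm_pow (X : V →L[ℝ] V) :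
    |LinearMap.det (X : V →ₗ[ℝ] V)| ≤ ‖X‖ ^ finrank ℝ V := by
  borelize V
  let μ : Measure V := Measure.addHaar
  have h1 : μ (X '' Metric.closedBall 0 1) =
      ENNReal.ofReal |LinearMap.det (X : V →ₗ[ℝ] V)| * μ (Metric.closedBall 0 1) :=
    Measure.addHaar_image_linearMap μ (X : V →ₗ[ℝ] V) _
  have h2 : X '' Metric.closedBall 0 1 ⊆ Metric.closedBall 0 ‖X‖ := by
    rintro _ ⟨x, hx, rfl⟩
    rw [mem_closedBall_zero_iff] at hx ⊢
    calc ‖X x‖ ≤ ‖X‖ * ‖x‖ := X.le_opNorm x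
      _ ≤ ‖X‖ * 1 := by gcongr
      _ = ‖X‖ := mul_one _
  have h3 : μ (X '' Metric.closedBall 0 1) ≤ μ (Metric.closedBall 0 ‖X‖) := measure_mono h2
  rw [h1, Measure.addHaar_closedBall μ 0 (norm_nonneg X),
    Measure.addHaar_closedBall μ 0 (zero_le_one), one_pow, ENNReal.ofReal_one, one_mul] at h3
  have h4 : μ (Metric.ball (0 : V) 1) ≠ 0 := (Metric.measure_ball_pos μ 0 one_pos).ne'
  have h5 : μ (Metric.ball (0 : V) 1) ≠ ⊤ := measure_ball_lt_top.ne
  have h6 : ENNReal.ofReal |LinearMap.det (X : V →ₗ[ℝ] V)| ≤ ENNReal.ofReal (‖X‖ ^ finrank ℝ V) :=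
    (ENNReal.mul_le_mul_iff_left h4 h5).1 h3
  exact (ENNReal.ofReal_le_ofReal_iff (by positivity)).1 h6

theorem det_one_add_le (X : V →L[ℝ] V) {a : ℝ} (hX : ‖X‖ ≤ a) :
    |LinearMap.det (LinearMap.id + (X : V →ₗ[ℝ] V))| ≤ (1 + a) ^ finrank ℝ V := by
  have h := abs_det_le_norm_pow (ContinuousLinearMap.id ℝ V + X)
  have h2 : ((ContinuousLinearMap.id ℝ V + X : V →L[ℝ] V) : V →ₗ[ℝ] V) =
      LinearMap.id + (X : V →ₗ[ℝ] V) := rfl
  rw [h2] at h
  refine h.trans (pow_le_pow_left₀ (norm_nonneg _) ?_ _)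
  calc ‖ContinuousLinearMap.id ℝ V + X‖ ≤ ‖ContinuousLinearMap.id ℝ V‖ + ‖X‖ := norm_add_le _ _
    _ ≤ 1 + a := add_le_add ContinuousLinearMap.norm_id_le hX

theorem le_det_one_add (X : V →L[ℝ] V) {a : ℝ} (hX : ‖X‖ ≤ a) (ha : a < 1) :
    (1 - a) ^ finrank ℝ V ≤ |LinearMap.det (LinearMap.id + (X : V →ₗ[ℝ] V))| := by
  -- `1 + X` is injective, with inverse of norm at most `(1 - a)⁻¹`
  have h0 : ∀ v : V, (1 - a) * ‖v‖ ≤ ‖v + X v‖ := by
    intro v
    have h1 : ‖X v‖ ≤ a * ‖v‖ := (X.le_opNorm v).trans (by gcongr)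
    have h2 : ‖v‖ ≤ ‖v + X v‖ + ‖X v‖ := by
      have := norm_sub_le (v + X v) (X v)
      simpa using this
    linarith
  have hinj : Function.Injective ((LinearMap.id : V →ₗ[ℝ] V) + (X : V →ₗ[ℝ] V)) := by
    rw [← LinearMap.ker_eq_bot, LinearMap.ker_eq_bot']
    intro v hv
    have h1 := h0 v
    have h2 : v + X v = 0 := hv
    rw [h2, norm_zero] at h1
    have h3 : ‖v‖ ≤ 0 := by
      by_contra hc
      push Not at hc
      have : 0 < (1 - a) * ‖v‖ := mul_pos (by linarith) hc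
      linarith
    exact norm_le_zero_iff.1 h3
  let e : V ≃ₗ[ℝ] V := LinearEquiv.ofInjectiveEndo _ hinj
  have he : (e : V →ₗ[ℝ] V) = LinearMap.id + (X : V →ₗ[ℝ] V) := by
    ext v; rfl
  let Y : V →L[ℝ] V := LinearMap.toContinuousLinearMap (e.symm : V →ₗ[ℝ] V)
  have hY : ‖Y‖ ≤ (1 - a)⁻¹ := by
    refine ContinuousLinearMap.opNorm_le_bound _ (by rw [inv_nonneg]; linarith) fun v => ?_
    have h1 := h0 (e.symm v)
    have h2 : e.symm v + X (e.symm v) = v := by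
      have : e (e.symm v) = v := e.apply_symm_apply v
      conv_rhs => rw [← this]
      have h3 : e (e.symm v) = (e : V →ₗ[ℝ] V) (e.symm v) := rfl
      rw [h3, he]; rfl
    rw [h2] at h1
    have h4 : Y v = e.symm v := rfl
    rw [h4, inv_mul_eq_div, le_div_iff₀ (by linarith)]
    linarith
  have h7 := abs_det_le_norm_pow Y
  have h8 : (Y : V →ₗ[ℝ] V) = (e.symm : V →ₗ[ℝ] V) := rfl
  have h9 : LinearMap.det (e : V →ₗ[ℝ] V) * LinearMap.det (e.symm : V →ₗ[ℝ] V) = 1 :=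
    LinearEquiv.det_mul_det_symm e
  rw [← he]
  have h10 : |LinearMap.det (e : V →ₗ[ℝ] V)| * |LinearMap.det (e.symm : V →ₗ[ℝ] V)| = 1 := by
    rw [← abs_mul, h9, abs_one]
  rw [h8] at h7
  have h11 : |LinearMap.det (e.symm : V →ₗ[ℝ] V)| ≤ ((1 - a) ^ finrank ℝ V)⁻¹ := by
    refine h7.trans ?_
    rw [← inv_pow]
    exact pow_le_pow_left₀ (norm_nonneg _) hY _
  have hpos : 0 < (1 - a) ^ finrank ℝ V := pow_pos (by linarith) _
  have h12 : 0 ≤ |LinearMap.det (e : V →ₗ[ℝ] V)| := abs_nonneg _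
  have h13 : 1 ≤ |LinearMap.det (e : V →ₗ[ℝ] V)| * ((1 - a) ^ finrank ℝ V)⁻¹ :=
    h10.symm.le.trans (mul_le_mul_of_nonneg_left h11 h12)
  calc (1 - a) ^ finrank ℝ V = (1 - a) ^ finrank ℝ V * 1 := (mul_one _).symm
    _ ≤ (1 - a) ^ finrank ℝ V * (|LinearMap.det (e : V →ₗ[ℝ] V)| *
        ((1 - a) ^ finrank ℝ V)⁻¹) := by gcongr
    _ = |LinearMap.det (e : V →ₗ[ℝ] V)| := by field_simp

end norm

end Vale.Agent.P109.SH
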