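import Vale.Agent.P109.SH.Det

/-!
Linear algebra of the static shadow lemma (P109).
`V` = sequences `x_0, …, x_n`, `F` = sequences of sources, `T x = (x_{t+1} - D_t x_t)`.
-/

open Module
open scoped InnerProductSpace

namespace Vale.Agent.P109.SH

variable {E V F : Type*}
  [NormedAddCommGroup E] [InnerProductSpace ℝ E] [FiniteDimensional ℝ E]
  [NormedAddCommGroup V] [InnerProductSpace ℝ V] [FiniteDimensional ℝ V]
  [NormedAddCommGroup F] [InnerProductSpace ℝ F] [FiniteDimensional ℝ F]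

/-- A right inverse of `T` of norm at most `κ` gives the dual estimate. -/
theorem dual_bound (T : V →ₗ[ℝ] F) {κ : ℝ} (G : F → V) (hTG : ∀ y, T (G y) = y)
    (hG : ∀ y, ‖G y‖ ≤ κ * ‖y‖) (y : F) : ‖y‖ ≤ κ * ‖LinearMap.adjoint T y‖ := by
  have h1 : ‖y‖ * ‖y‖ = ⟪G y, LinearMap.adjoint T y⟫_ℝ := by
    rw [LinearMap.adjoint_inner_right, hTG, real_inner_self_eq_norm_mul_norm]
  have h2 : ⟪G y, LinearMap.adjoint T y⟫_ℝ ≤ ‖G y‖ * ‖LinearMap.adjoint T y‖ :=
    real_inner_le_norm _ _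
  rcases eq_or_lt_of_le (norm_nonneg y) with h0 | h0
  · have h3 : y = 0 := norm_eq_zero.1 h0.symm
    subst h3
    simp
  · have h4 : ‖y‖ * ‖y‖ ≤ (κ * ‖y‖) * ‖LinearMap.adjoint T y‖ :=
      h1.le.trans (h2.trans (mul_le_mul_of_nonneg_right (hG y) (norm_nonneg _)))
    have h5 : ‖y‖ * ‖y‖ ≤ ‖y‖ * (κ * ‖LinearMap.adjoint T y‖) := by
      calc ‖y‖ * ‖y‖ ≤ (κ * ‖y‖) * ‖LinearMap.adjoint T y‖ := h4
        _ = ‖y‖ * (κ * ‖LinearMap.adjoint T y‖) := by ring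
    exact le_of_mul_le_mul_left h5 h0

/-- The pseudo-inverse. -/
theorem exists_pinv (T : V →ₗ[ℝ] F) {κ : ℝ}
    (hT : ∀ y, ‖y‖ ≤ κ * ‖LinearMap.adjoint T y‖) :
    ∃ P : F →ₗ[ℝ] V, T ∘ₗ P = LinearMap.id ∧ (∀ y, ‖P y‖ ≤ κ * ‖y‖) ∧
      (∀ x y, T x = 0 → ⟪x, P y⟫_ℝ = 0) ∧
      (∀ x, (∀ k, T k = 0 → ⟪k, x⟫_ℝ = 0) → P (T x) = x) := by
  have hinj : Function.Injective (T ∘ₗ LinearMap.adjoint T) := by
    rw [← LinearMap.ker_eq_bot, LinearMap.ker_eq_bot']
    intro y hy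
    have h1 : ⟪T (LinearMap.adjoint T y), y⟫_ℝ = 0 := by
      have : T (LinearMap.adjoint T y) = 0 := hy
      rw [this, inner_zero_left]
    rw [← LinearMap.adjoint_inner_right, real_inner_self_eq_norm_mul_norm] at h1
    have h2 : ‖LinearMap.adjoint T y‖ = 0 := by
      rcases mul_eq_zero.1 h1 with h | h <;> exact h
    have h3 := hT y
    rw [h2, mul_zero] at h3
    exact norm_le_zero_iff.1 h3
  let e : F ≃ₗ[ℝ] F := LinearEquiv.ofInjectiveEndo _ hinj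
  have he : ∀ y, T (LinearMap.adjoint T (e.symm y)) = y := fun y => e.apply_symm_apply y
  refine ⟨LinearMap.adjoint T ∘ₗ (e.symm : F →ₗ[ℝ] F), ?_, ?_, ?_, ?_⟩
  · ext y
    exact he y
  · intro y
    have h1 : ‖LinearMap.adjoint T (e.symm y)‖ * ‖LinearMap.adjoint T (e.symm y)‖
        = ⟪y, e.symm y⟫_ℝ := by
      rw [← real_inner_self_eq_norm_mul_norm, LinearMap.adjoint_inner_right, he]
    have h2 : ⟪y, e.symm y⟫_ℝ ≤ ‖y‖ * ‖e.symm y‖ := real_inner_le_norm _ _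
    have h3 := hT (e.symm y)
    set a := ‖LinearMap.adjoint T (e.symm y)‖ with ha
    have ha0 : 0 ≤ a := norm_nonneg _
    have h4 : a * a ≤ ‖y‖ * (κ * a) := by
      rw [h1]; exact h2.trans (mul_le_mul_of_nonneg_left h3 (norm_nonneg _))
    change a ≤ κ * ‖y‖
    rcases eq_or_lt_of_le ha0 with h0 | h0
    · -- then e.symm y = 0, so y = 0
      rw [← h0, mul_zero] at h3
      have h5 : e.symm y = 0 := norm_le_zero_iff.1 h3
      have h6 : y = 0 := by rw [← he y, h5]; simp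
      rw [← h0, h6]; simp
    · have h7 : a * a ≤ a * (κ * ‖y‖) := by
        calc a * a ≤ ‖y‖ * (κ * a) := h4
          _ = a * (κ * ‖y‖) := by ring
      exact le_of_mul_le_mul_left h7 h0
  · intro x y hx
    change ⟪x, LinearMap.adjoint T (e.symm y)⟫_ℝ = 0
    rw [LinearMap.adjoint_inner_right, hx, inner_zero_left]
  · intro x hx
    change LinearMap.adjoint T (e.symm (T x)) = x
    set z := LinearMap.adjoint T (e.symm (T x)) with hz
    have h1 : T (z - x) = 0 := by rw [map_sub, he, sub_self]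
    have h2 : ⟪z - x, x⟫_ℝ = 0 := hx _ h1
    have h3 : ⟪z - x, z⟫_ℝ = 0 := by
      rw [hz, LinearMap.adjoint_inner_right, ← hz, h1, inner_zero_left]
    have h4 : ⟪z - x, z - x⟫_ℝ = 0 := by rw [inner_sub_right, h3, h2, sub_zero]
    exact sub_eq_zero.1 (inner_self_eq_zero.1 h4)

/-- The determinant of `S = (A†A)⁻¹ A† A'` is `det (1 + (T' - T) P)`. -/
theorem det_S_eq (T T' : V →ₗ[ℝ] F) (A A' : E →ₗ[ℝ] V) (π : V →ₗ[ℝ] E)
    (hTA : T ∘ₗ A = 0) (hker : ∀ x, T x = 0 → ∃ u, A u = x)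
    (hπA : π ∘ₗ A = LinearMap.id) (hπA' : π ∘ₗ A' = LinearMap.id)
    (G' : F →ₗ[ℝ] V) (hsplit : ∀ x, x = A' (π x) + G' (T' x))
    (hdet : LinearMap.det (T ∘ₗ G') = 1)
    (P : F →ₗ[ℝ] V) (hTP : T ∘ₗ P = LinearMap.id) (hPorth : ∀ x y, T x = 0 → ⟪x, P y⟫_ℝ = 0)
    (S : E →ₗ[ℝ] E)
    (hS : (LinearMap.adjoint A ∘ₗ A) ∘ₗ S = LinearMap.adjoint A ∘ₗ A') :
    LinearMap.det S = LinearMap.det (LinearMap.id + (T' - T) ∘ₗ P) := by
  -- `A (S u) = A' u - P (T (A' u))`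
  have hQinj : ∀ u, LinearMap.adjoint A (A u) = 0 → u = 0 := by
    intro u hu
    have h1 : ⟪A u, A u⟫_ℝ = 0 := by
      rw [← LinearMap.adjoint_inner_right, hu, inner_zero_right]
    have h2 : A u = 0 := inner_self_eq_zero.1 h1
    have h3 : π (A u) = u := LinearMap.congr_fun hπA u
    rw [← h3, h2, map_zero]
  have hAS : ∀ u, A (S u) = A' u - P (T (A' u)) := by
    intro u
    obtain ⟨s, hs⟩ := hker (A' u - P (T (A' u))) (by
      rw [map_sub]
      have : T (P (T (A' u))) = T (A' u) := LinearMap.congr_fun hTP _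
      rw [this, sub_self])
    have h1 : LinearMap.adjoint A (A s) = LinearMap.adjoint A (A' u) := by
      rw [hs, map_sub]
      have : LinearMap.adjoint A (P (T (A' u))) = 0 := by
        refine ext_inner_left ℝ fun v => ?_
        rw [LinearMap.adjoint_inner_right, inner_zero_right]
        exact hPorth _ _ (LinearMap.congr_fun hTA v)
      rw [this, sub_zero]
    have h2 : LinearMap.adjoint A (A (S u)) = LinearMap.adjoint A (A' u) :=
      LinearMap.congr_fun hS u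
    have h3 : S u - s = 0 := by
      apply hQinj
      rw [map_sub, map_sub, h1, h2, sub_self]
    rw [sub_eq_zero.1 h3, hs]
  -- `S = 1 + π ∘ (-(P T A'))`
  have hS1 : S = LinearMap.id + π ∘ₗ (-(P ∘ₗ (T ∘ₗ A'))) := by
    ext u
    have h1 : π (A (S u)) = S u := LinearMap.congr_fun hπA _
    have h2 : π (A' u) = u := LinearMap.congr_fun hπA' _
    change S u = u + π (-(P (T (A' u))))
    rw [← h1, hAS, map_sub, h2, map_neg, sub_eq_add_neg]
  -- the `F` side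
  have hF : LinearMap.det S = LinearMap.det (LinearMap.id - (T ∘ₗ A') ∘ₗ (π ∘ₗ P)) := by
    rw [hS1]
    have h1 : π ∘ₗ (-(P ∘ₗ (T ∘ₗ A'))) = (-(π ∘ₗ P)) ∘ₗ (T ∘ₗ A') := by
      ext u; simp
    rw [h1, det_one_add_comp_comm]
    congr 1
    ext y
    simp [sub_eq_add_neg]
  have hfac : LinearMap.id - (T ∘ₗ A') ∘ₗ (π ∘ₗ P) =
      (T ∘ₗ G') ∘ₗ (LinearMap.id + (T' - T) ∘ₗ P) := by
    ext y
    have h1 : T (P y) = y := LinearMap.congr_fun hTP y
    have h2 := congrArg T (hsplit (P y))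
    rw [map_add, h1] at h2
    change y - T (A' (π (P y))) = T (G' (y + (T' (P y) - T (P y))))
    rw [h1]
    have h3 : y + (T' (P y) - y) = T' (P y) := by abel
    rw [h3, sub_eq_iff_eq_add']
    exact h2
  rw [hF, hfac, LinearMap.det_comp, hdet, one_mul]

/-- `A† A` is injective when `A` is. -/
theorem adj_comp_injective (A : E →ₗ[ℝ] V) (hA : Function.Injective A) :
    Function.Injective (LinearMap.adjoint A ∘ₗ A) := by
  rw [← LinearMap.ker_eq_bot, LinearMap.ker_eq_bot']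
  intro u hu
  have h1 : ⟪A u, A u⟫_ℝ = 0 := by
    have hu' : LinearMap.adjoint A (A u) = 0 := hu
    rw [← LinearMap.adjoint_inner_right, hu', inner_zero_right]
  have h2 : A u = 0 := inner_self_eq_zero.1 h1
  exact hA (h2.trans (map_zero A).symm)

/-- `det (1 - Q⁻¹ B)` is estimated through `1 - A Q⁻¹ B Q⁻¹ A†` on `V`. -/
theorem det_one_sub_bounds (A : E →ₗ[ℝ] V) (hA : Function.Injective A) (B C : E →ₗ[ℝ] E)
    {a : ℝ} (ha : 0 ≤ a) (ha1 : a < 1)
    (hB : ∀ u v, |⟪v, B u⟫_ℝ| ≤ a * (‖A v‖ * ‖A u‖))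
    (hC : (LinearMap.adjoint A ∘ₗ A) ∘ₗ C = B) :
    (1 - a) ^ finrank ℝ V ≤ |LinearMap.det (LinearMap.id - C)| ∧
      |LinearMap.det (LinearMap.id - C)| ≤ (1 + a) ^ finrank ℝ V := by
  have hQinj := adj_comp_injective A hA
  let e : E ≃ₗ[ℝ] E := LinearEquiv.ofInjectiveEndo _ hQinj
  have he : ∀ y, LinearMap.adjoint A (A (e.symm y)) = y := fun y => e.apply_symm_apply y
  have he' : ∀ y, e.symm (LinearMap.adjoint A (A y)) = y := fun y => e.symm_apply_apply y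
  have hCe : ∀ u, C u = e.symm (B u) := by
    intro u
    have h1 : LinearMap.adjoint A (A (C u)) = B u := LinearMap.congr_fun hC u
    rw [← h1, he']
  -- the projection `A Q⁻¹ A†` is a contraction
  have hproj : ∀ x : V, ‖A (e.symm (LinearMap.adjoint A x))‖ ≤ ‖x‖ := by
    intro x
    have h1 : ‖A (e.symm (LinearMap.adjoint A x))‖ * ‖A (e.symm (LinearMap.adjoint A x))‖ =
        ⟪x, A (e.symm (LinearMap.adjoint A x))⟫_ℝ := by
      rw [← real_inner_self_eq_norm_mul_norm, ← LinearMap.adjoint_inner_left, he,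
        LinearMap.adjoint_inner_left]
    have h2 := real_inner_le_norm x (A (e.symm (LinearMap.adjoint A x)))
    rcases eq_or_lt_of_le (norm_nonneg (A (e.symm (LinearMap.adjoint A x)))) with h0 | h0
    · rw [← h0]; exact norm_nonneg _
    · exact le_of_mul_le_mul_right (h1.le.trans h2) h0
  let X : V →ₗ[ℝ] V :=
    A ∘ₗ ((e.symm : E →ₗ[ℝ] E) ∘ₗ (B ∘ₗ ((e.symm : E →ₗ[ℝ] E) ∘ₗ LinearMap.adjoint A)))
  have hXnorm : ∀ x, ‖X x‖ ≤ a * ‖x‖ := by
    intro x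
    set w : E := e.symm (B (e.symm (LinearMap.adjoint A x))) with hw
    have hXx : X x = A w := rfl
    have h1 : ‖X x‖ * ‖X x‖ = ⟪w, B (e.symm (LinearMap.adjoint A x))⟫_ℝ := by
      rw [hXx, ← real_inner_self_eq_norm_mul_norm, ← LinearMap.adjoint_inner_right,
        hw, he]
    have h2 : ‖X x‖ * ‖X x‖ ≤ a * (‖A w‖ * ‖A (e.symm (LinearMap.adjoint A x))‖) := by
      rw [h1]; exact (le_abs_self _).trans (hB _ _)
    have h3 : ‖X x‖ * ‖X x‖ ≤ ‖X x‖ * (a * ‖x‖) := by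
      calc ‖X x‖ * ‖X x‖ ≤ a * (‖A w‖ * ‖A (e.symm (LinearMap.adjoint A x))‖) := h2
        _ ≤ a * (‖A w‖ * ‖x‖) := by gcongr; exact hproj x
        _ = ‖X x‖ * (a * ‖x‖) := by rw [hXx]; ring
    rcases eq_or_lt_of_le (norm_nonneg (X x)) with h0 | h0
    · rw [← h0]; positivity
    · exact le_of_mul_le_mul_left h3 h0
  have hdet : LinearMap.det (LinearMap.id - C) = LinearMap.det (LinearMap.id + (-X)) := by
    have h1 : LinearMap.id - C = LinearMap.id +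
        (-((e.symm : E →ₗ[ℝ] E) ∘ₗ (B ∘ₗ ((e.symm : E →ₗ[ℝ] E) ∘ₗ LinearMap.adjoint A)))) ∘ₗ A := by
      ext u
      change u - C u = u + -(e.symm (B (e.symm (LinearMap.adjoint A (A u)))))
      rw [he', hCe, sub_eq_add_neg]
    rw [h1, ← det_one_add_comp_comm]
    congr 1
    ext x
    simp [X]
  let Xc : V →L[ℝ] V := LinearMap.toContinuousLinearMap (-X)
  have hXc : ‖Xc‖ ≤ a := by
    refine ContinuousLinearMap.opNorm_le_bound _ ha fun x => ?_
    have : Xc x = -(X x) := rfl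
    rw [this, norm_neg]
    exact hXnorm x
  have hXc' : (Xc : V →ₗ[ℝ] V) = -X := rfl
  rw [hdet, ← hXc']
  exact ⟨le_det_one_add Xc hXc ha1, det_one_add_le Xc hXc⟩

/-- **Determinant estimate of the static shadow lemma, abstract form.** -/
theorem static_det (T T' : V →ₗ[ℝ] F) (A A' : E →ₗ[ℝ] V) (π : V →ₗ[ℝ] E)
    (hTA : T ∘ₗ A = 0) (hker : ∀ x, T x = 0 → ∃ u, A u = x)
    (hπA : π ∘ₗ A = LinearMap.id) (hπA' : π ∘ₗ A' = LinearMap.id)
    (G' : F →ₗ[ℝ] V) (hsplit : ∀ x, x = A' (π x) + G' (T' x))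
    (hdet : LinearMap.det (T ∘ₗ G') = 1)
    {κ ζ b : ℝ} (hT : ∀ y, ‖y‖ ≤ κ * ‖LinearMap.adjoint T y‖)
    (hζ : ∀ x, ‖T' x - T x‖ ≤ ζ * ‖x‖) (hζ0 : 0 ≤ ζ) (hb0 : 0 ≤ b) (hb : ζ * κ ≤ b) (hb1 : b < 1)
    (B : E →ₗ[ℝ] E) {a : ℝ} (ha : 0 ≤ a) (ha1 : a < 1)
    (hB : ∀ u v, |⟪v, B u⟫_ℝ| ≤ a * (‖A v‖ * ‖A u‖)) :
    Function.Injective (LinearMap.adjoint A ∘ₗ A') ∧
    ∀ L : E →ₗ[ℝ] E,
      (LinearMap.adjoint A ∘ₗ A') ∘ₗ L = LinearMap.adjoint A ∘ₗ A - B →
      (1 - a) ^ finrank ℝ V / (1 + b) ^ finrank ℝ F ≤ |LinearMap.det L| ∧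
      |LinearMap.det L| ≤ (1 + a) ^ finrank ℝ V / (1 - b) ^ finrank ℝ F := by
  have hA : Function.Injective A := by
    intro u v huv
    have h1 : π (A u) = u := LinearMap.congr_fun hπA u
    have h2 : π (A v) = v := LinearMap.congr_fun hπA v
    rw [← h1, ← h2, huv]
  obtain ⟨P, hTP, hPn, hPo, -⟩ := exists_pinv T hT
  let e : E ≃ₗ[ℝ] E := LinearEquiv.ofInjectiveEndo _ (adj_comp_injective A hA)
  have he : ∀ y, LinearMap.adjoint A (A (e.symm y)) = y := fun y => e.apply_symm_apply y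
  have he' : ∀ y, e.symm (LinearMap.adjoint A (A y)) = y := fun y => e.symm_apply_apply y
  let S : E →ₗ[ℝ] E := (e.symm : E →ₗ[ℝ] E) ∘ₗ (LinearMap.adjoint A ∘ₗ A')
  have hS : (LinearMap.adjoint A ∘ₗ A) ∘ₗ S = LinearMap.adjoint A ∘ₗ A' := by
    ext u
    exact he _
  have hdetS := det_S_eq T T' A A' π hTA hker hπA hπA' G' hsplit hdet P hTP hPo S hS
  let X : F →L[ℝ] F := LinearMap.toContinuousLinearMap ((T' - T) ∘ₗ P)
  have hX : ‖X‖ ≤ b := by
    refine ContinuousLinearMap.opNorm_le_bound _ hb0 fun y => ?_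
    have h1 : X y = T' (P y) - T (P y) := rfl
    rw [h1]
    calc ‖T' (P y) - T (P y)‖ ≤ ζ * ‖P y‖ := hζ _
      _ ≤ ζ * (κ * ‖y‖) := by gcongr; exact hPn y
      _ = (ζ * κ) * ‖y‖ := by ring
      _ ≤ b * ‖y‖ := by gcongr
  have hX' : (X : F →ₗ[ℝ] F) = (T' - T) ∘ₗ P := rfl
  have hS1 : (1 - b) ^ finrank ℝ F ≤ |LinearMap.det S| := by
    rw [hdetS, ← hX']; exact le_det_one_add X hX hb1
  have hS2 : |LinearMap.det S| ≤ (1 + b) ^ finrank ℝ F := by
    rw [hdetS, ← hX']; exact det_one_add_le X hX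
  have hSpos : 0 < |LinearMap.det S| := lt_of_lt_of_le (pow_pos (by linarith) _) hS1
  refine ⟨?_, ?_⟩
  · intro u v huv
    have hSinj : Function.Injective S := by
      have h1 : LinearMap.det S ≠ 0 := abs_pos.1 hSpos
      exact (LinearMap.equivOfDetNeZero S h1).injective
    apply hSinj
    change e.symm ((LinearMap.adjoint A ∘ₗ A') u) = e.symm ((LinearMap.adjoint A ∘ₗ A') v)
    rw [huv]
  · intro L hL
    let C : E →ₗ[ℝ] E := (e.symm : E →ₗ[ℝ] E) ∘ₗ B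
    have hC : (LinearMap.adjoint A ∘ₗ A) ∘ₗ C = B := by
      ext u
      exact he _
    have hSL : S ∘ₗ L = LinearMap.id - C := by
      ext u
      have h1 : (LinearMap.adjoint A ∘ₗ A') (L u) = LinearMap.adjoint A (A u) - B u :=
        LinearMap.congr_fun hL u
      change e.symm ((LinearMap.adjoint A ∘ₗ A') (L u)) = u - e.symm (B u)
      rw [h1, map_sub, he']
    obtain ⟨h1, h2⟩ := det_one_sub_bounds A hA B C ha ha1 hB hC
    rw [← hSL, LinearMap.det_comp, abs_mul] at h1 h2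
    have hb2 : 0 < (1 + b) ^ finrank ℝ F := by positivity
    have hb3 : 0 < (1 - b) ^ finrank ℝ F := pow_pos (by linarith) _
    constructor
    · rw [div_le_iff₀ hb2]
      calc (1 - a) ^ finrank ℝ V ≤ |LinearMap.det S| * |LinearMap.det L| := h1
        _ ≤ (1 + b) ^ finrank ℝ F * |LinearMap.det L| := by gcongr
        _ = |LinearMap.det L| * (1 + b) ^ finrank ℝ F := mul_comm _ _
    · rw [le_div_iff₀ hb3]
      calc |LinearMap.det L| * (1 - b) ^ finrank ℝ F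
          ≤ |LinearMap.det L| * |LinearMap.det S| := by gcongr
        _ = |LinearMap.det S| * |LinearMap.det L| := mul_comm _ _
        _ ≤ (1 + a) ^ finrank ℝ V := h2

end Vale.Agent.P109.SH
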